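import Vale.Agent.P057.Bdl.B1

namespace Vale.Agent.Results.P057.Both

/-- Both directions: the upper bound `N exp (-c (log N / log log N) ^ (1 / 6))` for sets without
three-term arithmetic progressions, and a lower bound with a better constant for sets without
`k`-term arithmetic progressions, every `k ≥ 4`. -/
theorem result :
    (∃ c : ℝ, 0 < c ∧ ∃ N₀ : ℕ, ∀ N : ℕ, N₀ ≤ N →
      ∀ A : Finset ℕ, A ⊆ Finset.Icc 1 N →
        (∀ a d : ℕ, 0 < d → ¬ (a ∈ A ∧ a + d ∈ A ∧ a + 2 * d ∈ A)) →
        (A.card : ℝ) ≤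
          N * Real.exp (-c * (Real.log N / Real.log (Real.log N)) ^ ((1:ℝ)/6))) ∧
    (∀ k : ℕ, 4 ≤ k → ∀ n : ℕ, n = Nat.clog 2 k → ∀ ε : ℝ, 0 < ε →
      ∃ N₀ : ℕ, ∀ N : ℕ, N₀ ≤ N →
        ∃ A : Finset ℕ, A ⊆ Finset.Icc 1 N ∧
          (∀ a d : ℕ, 0 < d → ¬ ∀ j < k, a + j * d ∈ A) ∧
          (N : ℝ) * Real.exp (-((1 + ε) * n *
            (2 ^ (n * (n - 1) / 2) * Real.log 2 ^ (n - 2) * Real.log (9 / 5) * Real.log N) ^
              ((1 : ℝ) / n))) ≤ A.card) := by
  refine ⟨?_, ?_⟩
  · obtain ⟨c, hc, N₀, h⟩ := Vale.Agent.P057.main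
    refine ⟨c, hc, N₀, fun N hN A hA hfree => le_trans ?_ (h N hN)⟩
    have h3 : ThreeAPFree (A : Set ℕ) := by
      intro a ha b hb c hc habc
      have ha' : a ∈ A := ha
      have hb' : b ∈ A := hb
      have hc' : c ∈ A := hc
      rcases lt_trichotomy a b with hab | hab | hab
      · exfalso
        have e1 : a + (b - a) = b := by omega
        have e2 : a + 2 * (b - a) = c := by omega
        exact hfree a (b - a) (by omega) ⟨ha', by rw [e1]; exact hb', by rw [e2]; exact hc'⟩
      · exact hab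
      · exfalso
        have e1 : c + (b - c) = b := by omega
        have e2 : c + 2 * (b - c) = a := by omega
        exact hfree c (b - c) (by omega) ⟨hc', by rw [e1]; exact hb', by rw [e2]; exact ha'⟩
    have h4 : A.card ≤ addRothNumber (Finset.Icc 1 N) := h3.le_addRothNumber hA
    have h5 : addRothNumber (Finset.Icc 1 N) = rothNumberNat N := by
      have := addRothNumber_Ico 1 (N + 1)
      have e : Finset.Ico 1 (N + 1) = Finset.Icc 1 N := by
        ext x; simp [Finset.mem_Ico, Finset.mem_Icc, Nat.lt_succ_iff]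
      rw [e] at this
      simpa using this
    exact_mod_cast h5 ▸ h4
  · intro k hk n hn ε hε
    subst hn
    exact Vale.Agent.P057.Lower.lower_all k hk ε hε

end Vale.Agent.Results.P057.Both
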