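import Vale.Agent.P057.Bdl.B1

namespace Vale.Agent.Results.P057.Explicit

theorem result : ∃ c : ℝ, 0 < c ∧ ∃ N₀ : ℕ, ∀ N : ℕ, N₀ ≤ N →
    ∀ A : Finset ℕ, A ⊆ Finset.Icc 1 N →
      (∀ a d : ℕ, 0 < d → ¬ (a ∈ A ∧ a + d ∈ A ∧ a + 2 * d ∈ A)) →
      (A.card : ℝ) ≤
        N * Real.exp (-c * (Real.log N / Real.log (Real.log N)) ^ ((1:ℝ)/6)) := by
  obtain ⟨c, hc, N₀, h⟩ := Vale.Agent.P057.main
  refine ⟨c, hc, N₀, fun N hN A hA hfree => le_trans ?_ (h N hN)⟩
  have h3 : ThreeAPFree (A : Set ℕ) := by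
    intro a ha b hb c hc habc
    have ha' : a ∈ A := ha
    have hb' : b ∈ A := hb
    have hc' : c ∈ A := hc
    rcases lt_trichotomy a b with hab | hab | hab
    · exfalso
      have e1 : a + (b - a) = b := by omega
      have e2 : a + 2 * (b - a) = c := by omega
      exact hfree a (b - a) (by omega) ⟨ha', by rw [e1]; exact hb', by rw [e2]; exact hc'⟩
    · exact hab
    · exfalso
      have e1 : c + (b - c) = b := by omega
      have e2 : c + 2 * (b - c) = a := by omega
      exact hfree c (b - c) (by omega) ⟨hc', by rw [e1]; exact hb', by rw [e2]; exact ha'⟩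
  have h4 : A.card ≤ addRothNumber (Finset.Icc 1 N) := h3.le_addRothNumber hA
  have h5 : addRothNumber (Finset.Icc 1 N) = rothNumberNat N := by
    have := addRothNumber_Ico 1 (N + 1)
    have e : Finset.Ico 1 (N + 1) = Finset.Icc 1 N := by
      ext x; simp [Finset.mem_Ico, Finset.mem_Icc, Nat.lt_succ_iff]
    rw [e] at this
    simpa using this
  exact_mod_cast h5 ▸ h4

end Vale.Agent.Results.P057.Explicit
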