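import Vale.Agent.P057.Bdl.B1

namespace Vale.Agent.Results.P057.LowerAll

theorem result (k : ℕ) (hk : 4 ≤ k) (n : ℕ) (hn : n = Nat.clog 2 k) (ε : ℝ) (hε : 0 < ε) :
    ∃ N₀ : ℕ, ∀ N : ℕ, N₀ ≤ N →
      ∃ A : Finset ℕ, A ⊆ Finset.Icc 1 N ∧
        (∀ a d : ℕ, 0 < d → ¬ ∀ j < k, a + j * d ∈ A) ∧
        (N : ℝ) * Real.exp (-((1 + ε) * n *
          (2 ^ (n * (n - 1) / 2) * Real.log 2 ^ (n - 2) * Real.log (9 / 5) * Real.log N) ^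
            ((1 : ℝ) / n))) ≤ A.card := by
  subst hn
  exact Vale.Agent.P057.Lower.lower_all k hk ε hε

end Vale.Agent.Results.P057.LowerAll
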